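import Vale.Agent.P330.S.NumPT

/-!
# Digits in base `2 ^ f`

`dg f n t` is the `t`-th digit of `n`; `pack f M g` is the number with the digits
`g 0, …, g (M - 1)`.  Both are compatible with the bitwise exclusive or.
-/

namespace Vale.Agent.P330.H604

open Vale.Agent.Lib.PolyTime
open S (ofBits testBit_ofBits ofBits_lt)

/-- the `t`-th digit of `n` in base `2 ^ f` -/
def dg (f n t : ℕ) : ℕ := n / 2 ^ (f * t) % 2 ^ f

/-- the number with the digits `g 0, …, g (M - 1)` in base `2 ^ f` -/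
def pack (f M : ℕ) (g : ℕ → ℕ) : ℕ := ofBits (f * M) fun i => (g (i / f)).testBit (i % f)

theorem dg_lt (f n t : ℕ) : dg f n t < 2 ^ f := Nat.mod_lt _ (Nat.two_pow_pos _)

theorem testBit_dg (f n t j : ℕ) : (dg f n t).testBit j = (decide (j < f) && n.testBit (f * t + j)) := by
  unfold dg
  rw [Nat.testBit_mod_two_pow, Nat.testBit_div_two_pow, Nat.add_comm]

theorem pack_lt (f M : ℕ) (g : ℕ → ℕ) : pack f M g < 2 ^ (f * M) := ofBits_lt _ _

theorem testBit_pack (f M : ℕ) (g : ℕ → ℕ) (i : ℕ) :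
    (pack f M g).testBit i = (decide (i < f * M) && (g (i / f)).testBit (i % f)) := by
  unfold pack
  by_cases h : i < f * M
  · rw [testBit_ofBits _ _ _ h]
    simp [h]
  · have h1 : ofBits (f * M) (fun i => (g (i / f)).testBit (i % f)) < 2 ^ i :=
      lt_of_lt_of_le (ofBits_lt _ _) (Nat.pow_le_pow_right (by norm_num) (not_lt.1 h))
    rw [Nat.testBit_lt_two_pow h1]
    simp [h]

theorem eq_of_testBit_lt {f a b : ℕ} (ha : a < 2 ^ f) (hb : b < 2 ^ f)
    (h : ∀ j < f, a.testBit j = b.testBit j) : a = b := by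
  apply Nat.eq_of_testBit_eq
  intro j
  by_cases hj : j < f
  · exact h j hj
  · have h1 : (2 : ℕ) ^ f ≤ 2 ^ j := Nat.pow_le_pow_right (by norm_num) (not_lt.1 hj)
    rw [Nat.testBit_lt_two_pow (lt_of_lt_of_le ha h1), Nat.testBit_lt_two_pow (lt_of_lt_of_le hb h1)]

theorem dg_pack {f M : ℕ} {g : ℕ → ℕ} {t : ℕ} (ht : t < M) (hg : g t < 2 ^ f) :
    dg f (pack f M g) t = g t := by
  apply eq_of_testBit_lt (dg_lt _ _ _) hg
  intro j hj
  have h1 : f * t + j < f * M := by
    calc f * t + j < f * t + f := by omega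
      _ = f * (t + 1) := by ring
      _ ≤ f * M := Nat.mul_le_mul_left _ ht
  have h2 : (f * t + j) / f = t := by
    rw [Nat.mul_add_div (by omega), Nat.div_eq_of_lt hj, Nat.add_zero]
  have h3 : (f * t + j) % f = j := by
    rw [Nat.mul_add_mod, Nat.mod_eq_of_lt hj]
  rw [testBit_dg, testBit_pack, h2, h3]
  simp [hj, h1]

theorem pack_dg {f M n : ℕ} (hn : n < 2 ^ (f * M)) : pack f M (dg f n) = n := by
  apply eq_of_testBit_lt (pack_lt _ _ _) hn
  intro i hi
  have hf : 0 < f := by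
    rcases Nat.eq_zero_or_pos f with h | h
    · subst h; simp at hi
    · exact h
  rw [testBit_pack, testBit_dg, Nat.div_add_mod]
  simp [hi, Nat.mod_lt _ hf]

theorem pack_congr {f M : ℕ} {g g' : ℕ → ℕ} (h : ∀ t < M, g t = g' t) :
    pack f M g = pack f M g' := by
  apply eq_of_testBit_lt (pack_lt _ _ _) (pack_lt _ _ _)
  intro i hi
  rw [testBit_pack, testBit_pack]
  have h1 : i / f < M := Nat.div_lt_of_lt_mul hi
  rw [h _ h1]

theorem pack_xor (f M : ℕ) (g g' : ℕ → ℕ) :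
    pack f M (fun t => g t ^^^ g' t) = pack f M g ^^^ pack f M g' := by
  apply Nat.eq_of_testBit_eq
  intro i
  rw [Nat.testBit_xor, testBit_pack, testBit_pack, testBit_pack, Nat.testBit_xor]
  cases decide (i < f * M) <;> simp

theorem dg_xor (f a b t : ℕ) : dg f (a ^^^ b) t = dg f a t ^^^ dg f b t := by
  apply Nat.eq_of_testBit_eq
  intro i
  rw [Nat.testBit_xor, testBit_dg, testBit_dg, testBit_dg, Nat.testBit_xor]
  cases decide (i < f) <;> simp

theorem dg_zero (f t : ℕ) : dg f 0 t = 0 := by simp [dg]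

theorem pack_zero (f M : ℕ) : pack f M (fun _ => 0) = 0 := by
  apply Nat.eq_of_testBit_eq
  intro i
  rw [testBit_pack]
  simp

theorem eq_of_dg {f M a b : ℕ} (ha : a < 2 ^ (f * M)) (hb : b < 2 ^ (f * M))
    (h : ∀ t < M, dg f a t = dg f b t) : a = b := by
  rw [← pack_dg ha, ← pack_dg hb]
  exact pack_congr h

theorem dg_of_le {f M n t : ℕ} (hn : n < 2 ^ (f * M)) (ht : M ≤ t) : dg f n t = 0 := by
  unfold dg
  rw [Nat.div_eq_of_lt, Nat.zero_mod]
  exact lt_of_lt_of_le hn (Nat.pow_le_pow_right (by norm_num) (Nat.mul_le_mul_left _ ht))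

/-! ### Polynomial time -/

variable {A : Set Word} {α : Type*} [Enc α]

theorem PBd.mul' {b b' : α → ℕ} (hb : PBd b) (hb' : PBd b') : PBd (fun a => b a * b' a) :=
  hb.mul hb'

theorem PT_dg {f n t : α → ℕ} (hf : PT A f) (hfb : PBd f) (hn : PT A n) (ht : PT A t)
    (htb : PBd t) : PT A (fun a => dg (f a) (n a) (t a)) :=
  PT.mod (PT.div hn (PT.pow (PT.const 2) (PT.mul hf ht) (hfb.mul htb)))
    (PT.pow (PT.const 2) hf hfb)

theorem PT_pack {f M : α → ℕ} {g : α → ℕ → ℕ} (hf : PT A f) (hfb : PBd f) (hM : PT A M)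
    (hMb : PBd M) (hg : PT A (fun p : α × ℕ => g p.1 p.2)) :
    PT A (fun a => pack (f a) (M a) (g a)) := by
  refine S.PT.ofBits (PT.mul hf hM) (hfb.mul hMb) ?_
  have h1 : PT A (fun p : α × ℕ => p.2 / f p.1) := PT.div PT.snd' (hf.comp PT.fst')
  have h2 : PT A (fun p : α × ℕ => p.2 % f p.1) := PT.mod PT.snd' (hf.comp PT.fst')
  exact PT.testBit (hg.comp (PT.fst'.pair h1)) h2

end Vale.Agent.P330.H604
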