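import Vale.Agent.P330.H933.Fld3
import Vale.Agent.P330.W.H604.Pack

/-!
# The group `SL_3` over an explicit field, as numbers

`mc l M` is the number of the matrix `M` over `Fl l`, `gn l g` the number `< cG l` of the element
`g` of `SL_3(Fl l)`.  `MT A l M`, `GT A l g`: the number of the matrix `M a` over `Fl (l a)`, of the
element `g a` of `SL_3(Fl (l a))`, is computable in polynomial time.
-/

namespace Vale.Agent.P330.H604

open Vale.Agent.Lib.PolyTime Vale.Agent.P330.H933 Matrix

/-! ### Counting in polynomial time -/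

section count

variable {A : Set Word} {α : Type*} [Enc α]

theorem count_eq_length (p : ℕ → Prop) [DecidablePred p] (n : ℕ) :
    Nat.count p n = ((List.range n).filter (fun k => decide (p k))).length := by
  induction n with
  | zero => simp
  | succ n ih =>
    rw [Nat.count_succ, ih, List.range_succ, List.filter_append, List.length_append]
    by_cases h : p n <;> simp [h]

theorem PT_count {p : α → ℕ → Prop} [∀ a, DecidablePred (p a)] {n : α → ℕ}
    (hp : PT A (fun q : α × ℕ => decide (p q.1 q.2))) (hn : PT A n) (hnb : PBd n) :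
    PT A (fun a => Nat.count (p a) (n a)) :=
  (PT.length (PT.filter (f := fun a k => decide (p a k)) (PT.range hn hnb) hp)).congr fun a =>
    (count_eq_length (p a) (n a)).symm

/-- The list of the numbers `< N` with the property `p`. -/
theorem filter_getD_count (p : ℕ → Prop) [DecidablePred p] {k N : ℕ} (hk : p k) (hN : k < N) :
    ((List.range N).filter (fun k => decide (p k))).getD (Nat.count p k) 0 = k := by
  induction N with
  | zero => omega
  | succ N ih =>
    rw [List.range_succ, List.filter_append]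
    rcases Nat.lt_succ_iff_lt_or_eq.1 hN with h | h
    · have h1 : Nat.count p k < ((List.range N).filter (fun k => decide (p k))).length := by
        rw [← count_eq_length]
        exact Nat.count_strict_mono hk h
      rw [List.getD_append _ _ _ _ h1]
      exact ih h
    · subst h
      rw [List.getD_append_right _ _ _ _ (by rw [count_eq_length])]
      simp [count_eq_length, hk]

theorem exists_count (p : ℕ → Prop) [DecidablePred p] {v N : ℕ} (hv : v < Nat.count p N) :
    ∃ k < N, p k ∧ Nat.count p k = v := by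
  induction N with
  | zero => simp at hv
  | succ N ih =>
    by_cases h : v < Nat.count p N
    · obtain ⟨k, hk, h1, h2⟩ := ih h
      exact ⟨k, by omega, h1, h2⟩
    · rw [Nat.count_succ] at hv
      by_cases h1 : p N
      · rw [if_pos h1] at hv
        exact ⟨N, by omega, h1, by omega⟩
      · rw [if_neg h1] at hv
        omega

end count

/-! ### Matrices -/

/-- a natural number modulo three -/
def f3 (t : ℕ) : Fin 3 := ⟨t % 3, Nat.mod_lt _ (by norm_num)⟩

theorem f3_fin (i : Fin 3) : f3 (i : ℕ) = i := Fin.ext (Nat.mod_eq_of_lt i.2)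

theorem val_f3 (t : ℕ) : (f3 t : ℕ) = t % 3 := rfl

/-- the number of a matrix -/
noncomputable def mc (l : ℕ) (M : Matrix (Fin 3) (Fin 3) (Fl l)) : ℕ :=
  pack (eF l) 9 fun t => cod l (M (f3 (t / 3)) (f3 (t % 3)))

/-- the matrix with a given number -/
noncomputable def md (l n : ℕ) : Matrix (Fin 3) (Fin 3) (Fl l) :=
  fun i j => dec l (dg (eF l) n (3 * i + j))

theorem mc_lt (l : ℕ) (M : Matrix (Fin 3) (Fin 3) (Fl l)) : mc l M < 2 ^ (eF l * 9) :=
  pack_lt _ _ _

theorem dg_mc (l : ℕ) (M : Matrix (Fin 3) (Fin 3) (Fl l)) (i j : Fin 3) :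
    dg (eF l) (mc l M) (3 * i + j) = cod l (M i j) := by
  have hi := i.2
  have hj := j.2
  have h1 : (3 * (i : ℕ) + j) / 3 = i := by omega
  have h2 : (3 * (i : ℕ) + j) % 3 = j := by omega
  unfold mc
  rw [dg_pack (by omega) (cod_lt _), h1, h2, f3_fin, f3_fin]

theorem md_mc (l : ℕ) (M : Matrix (Fin 3) (Fin 3) (Fl l)) : md l (mc l M) = M := by
  funext i j
  unfold md
  rw [dg_mc, dec_cod]

theorem mc_md {l n : ℕ} (hn : n < 2 ^ (eF l * 9)) : mc l (md l n) = n := by
  unfold mc md
  conv_rhs => rw [← pack_dg hn]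
  refine pack_congr fun t ht => ?_
  have h1 : (f3 (t / 3) : ℕ) = t / 3 := by rw [val_f3, Nat.mod_eq_of_lt (by omega)]
  have h2 : (f3 (t % 3) : ℕ) = t % 3 := by rw [val_f3, Nat.mod_eq_of_lt (by omega)]
  rw [h1, h2, Nat.div_add_mod, cod_dec (dg_lt _ _ _)]

theorem mc_inj {l : ℕ} {M N : Matrix (Fin 3) (Fin 3) (Fl l)} (h : mc l M = mc l N) : M = N := by
  rw [← md_mc l M, h, md_mc]

/-! ### The group -/

/-- `SL_3` over `Fl l` -/
abbrev SL3 (l : ℕ) : Type := SpecialLinearGroup (Fin 3) (Fl l)

/-- the numbers of the matrices of determinant one -/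
def isG (l n : ℕ) : Prop := (md l n).det = 1

noncomputable instance (l : ℕ) : DecidablePred (isG l) := fun _ => Classical.dec _

/-- the order of the group -/
noncomputable def cG (l : ℕ) : ℕ := Nat.count (isG l) (2 ^ (eF l * 9))

/-- the number of a group element -/
noncomputable def gn (l : ℕ) (g : SL3 l) : ℕ := Nat.count (isG l) (mc l g.1)

theorem isG_mc {l : ℕ} (g : SL3 l) : isG l (mc l g.1) := by
  unfold isG
  rw [md_mc]
  exact g.2

theorem gn_lt {l : ℕ} (g : SL3 l) : gn l g < cG l := Nat.count_strict_mono (isG_mc g) (mc_lt l _)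

theorem gn_inj {l : ℕ} {g h : SL3 l} (e : gn l g = gn l h) : g = h :=
  Subtype.ext (mc_inj (Nat.count_injective (isG_mc g) (isG_mc h) e))

theorem exists_gn {l v : ℕ} (hv : v < cG l) : ∃ g : SL3 l, gn l g = v := by
  obtain ⟨k, hk, h1, h2⟩ := exists_count (isG l) hv
  exact ⟨⟨md l k, h1⟩, by unfold gn; rw [mc_md hk]; exact h2⟩

theorem cG_pos (l : ℕ) : 0 < cG l := lt_of_le_of_lt (Nat.zero_le _) (gn_lt (1 : SL3 l))

open Classical in
/-- the group element with a given number -/
noncomputable def ge (l v : ℕ) : SL3 l := if h : v < cG l then (exists_gn h).choose else 1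

theorem gn_ge {l v : ℕ} (hv : v < cG l) : gn l (ge l v) = v := by
  unfold ge
  rw [dif_pos hv]
  exact (exists_gn hv).choose_spec

theorem ge_gn {l : ℕ} (g : SL3 l) : ge l (gn l g) = g := gn_inj (gn_ge (gn_lt g))

theorem ge_of_not_lt {l v : ℕ} (hv : ¬ v < cG l) : ge l v = 1 := by
  unfold ge
  rw [dif_neg hv]

/-- The numbering of the group. -/
noncomputable def gE (l : ℕ) : SL3 l ≃ Fin (cG l) where
  toFun g := ⟨gn l g, gn_lt g⟩
  invFun v := ge l v
  left_inv g := ge_gn g
  right_inv v := Fin.ext (gn_ge v.2)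

noncomputable instance (l : ℕ) : Fintype (SL3 l) := Fintype.ofEquiv _ (gE l).symm

theorem card_SL3 (l : ℕ) : Fintype.card (SL3 l) = cG l := by
  rw [Fintype.card_congr (gE l), Fintype.card_fin]

/-- the matrix of the element with number `v` -/
theorem mc_ge {l v : ℕ} (hv : v < cG l) : mc l (ge l v).1 =
    ((List.range (2 ^ (eF l * 9))).filter (fun k => decide (isG l k))).getD v 0 := by
  have h := filter_getD_count (isG l) (isG_mc (ge l v)) (mc_lt l _)
  have h1 : Nat.count (isG l) (mc l (ge l v).1) = v := gn_ge hv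
  rw [h1] at h
  exact h.symm

/-! ### Polynomial time -/

variable {A : Set Word} {α : Type*} [Enc α] {l : α → ℕ}

/-- The number of the matrix `M a` is computable in polynomial time. -/
def MT (A : Set Word) (l : α → ℕ) (M : ∀ a, Matrix (Fin 3) (Fin 3) (Fl (l a))) : Prop :=
  PT A (fun a => mc (l a) (M a))

/-- The number of the group element `g a` is computable in polynomial time. -/
def GT (A : Set Word) (l : α → ℕ) (g : ∀ a, SL3 (l a)) : Prop := PT A (fun a => gn (l a) (g a))

/-- Standing assumption on the parameter of the small field. -/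
structure GPar (A : Set Word) (l : α → ℕ) : Prop extends LPar A l where
  qbd : PBd (fun a => 2 ^ eF (l a))

theorem GPar.comp {β : Type*} [Enc β] (h : GPar A l) {g : β → α} (hg : PT A g) :
    GPar A (fun b => l (g b)) :=
  ⟨h.toLPar.comp hg, PBd.comp (b := fun a => 2 ^ eF (l a)) h.qbd hg⟩

theorem GPar.bd9 (h : GPar A l) : PBd (fun a => 2 ^ (eF (l a) * 9)) := by
  refine (PBd.pow h.qbd 9).mono fun a => ?_
  rw [← pow_mul]

theorem GPar.pt9 (h : GPar A l) : PT A (fun a => 2 ^ (eF (l a) * 9)) :=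
  PT.pow (PT.const 2) (PT.mul h.toLPar.eF (PT.const 9)) (h.toLPar.eFbd.mul (PBd.const 9))

theorem _root_.Vale.Agent.P330.H933.FT.entryNat (hl : LPar A l)
    {M : ∀ a, Matrix (Fin 3) (Fin 3) (Fl (l a))} (hM : MT A l M) {i j : α → ℕ} (hi : PT A i)
    (hj : PT A j) : FT A l (fun a => M a (f3 (i a)) (f3 (j a))) := by
  have h1 : PT A (fun a => 3 * (i a % 3) + j a % 3) :=
    PT.add (PT.mul (PT.const 3) (PT.mod hi (PT.const 3))) (PT.mod hj (PT.const 3))
  have h2 : PBd (fun a => 3 * (i a % 3) + j a % 3) := (PBd.const 9).mono fun a => by omega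
  refine (PT_dg hl.eF hl.eFbd hM h1 h2).congr fun a => ?_
  rw [← dg_mc, val_f3, val_f3]

theorem MT.entry (hl : LPar A l) {M : ∀ a, Matrix (Fin 3) (Fin 3) (Fl (l a))} (hM : MT A l M)
    (i j : Fin 3) : FT A l (fun a => M a i j) :=
  (FT.entryNat hl hM (PT.const (i : ℕ)) (PT.const (j : ℕ))).congr fun a => by
    rw [f3_fin, f3_fin]

theorem PT_ninth {f : ℕ → α → ℕ} (h : ∀ t < 9, PT A (f t)) :
    PT A (fun q : α × ℕ => f (q.2 % 9) q.1) := by
  have key : ∀ n, n ≤ 9 → PT A (fun q : α × ℕ => if q.2 % 9 < n then f (q.2 % 9) q.1 else 0) := by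
    intro n
    induction n with
    | zero => intro _; exact (PT.const 0).congr fun q => by simp
    | succ n ih =>
      intro hn
      refine (PT.ite (p := fun q : α × ℕ => q.2 % 9 = n)
        (PT.eqNat (PT.mod PT.snd' (PT.const 9)) (PT.const n))
        ((h n (by omega)).comp PT.fst') (ih (by omega))).congr fun q => ?_
      by_cases h1 : q.2 % 9 = n
      · simp [h1]
      · by_cases h2 : q.2 % 9 < n
        · simp [h1, h2, show q.2 % 9 < n + 1 by omega]
        · simp [h1, h2, show ¬ q.2 % 9 < n + 1 by omega]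
  refine (key 9 le_rfl).congr fun q => ?_
  rw [if_pos (Nat.mod_lt _ (by norm_num))]

theorem MT.mk (hl : LPar A l) {M : ∀ a, Matrix (Fin 3) (Fin 3) (Fl (l a))}
    (h : ∀ i j, FT A l (fun a => M a i j)) : MT A l M := by
  have h1 : PT A (fun q : α × ℕ => cod (l q.1)
      (M q.1 (f3 (q.2 % 9 / 3)) (f3 (q.2 % 9 % 3)))) :=
    PT_ninth (f := fun t a => cod (l a) (M a (f3 (t / 3)) (f3 (t % 3))))
      fun t _ => h _ _
  refine (PT_pack (g := fun a t => cod (l a) (M a (f3 (t % 9 / 3)) (f3 (t % 9 % 3)))) hl.eF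
    hl.eFbd (PT.const 9) (PBd.const 9) h1).congr fun a => ?_
  unfold mc
  refine pack_congr fun t ht => ?_
  rw [Nat.mod_eq_of_lt ht]

theorem MT.congr {M N : ∀ a, Matrix (Fin 3) (Fin 3) (Fl (l a))} (hM : MT A l M)
    (h : ∀ a, M a = N a) : MT A l N := by
  have : M = N := funext h
  rwa [this] at hM

theorem MT.comp {β : Type*} [Enc β] {M : ∀ a, Matrix (Fin 3) (Fin 3) (Fl (l a))} (hM : MT A l M)
    {u : β → α} (hu : PT A u) : MT A (fun b => l (u b)) (fun b => M (u b)) :=
  PT.comp (g := fun a => mc (l a) (M a)) hM hu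

theorem MT.mul (hl : LPar A l) {M N : ∀ a, Matrix (Fin 3) (Fin 3) (Fl (l a))} (hM : MT A l M)
    (hN : MT A l N) : MT A l (fun a => M a * N a) := by
  refine MT.mk hl fun i j => ?_
  refine FT.congr (((FT.mul hl (hM.entry hl i 0) (hN.entry hl 0 j)).add
    (FT.mul hl (hM.entry hl i 1) (hN.entry hl 1 j))).add
    (FT.mul hl (hM.entry hl i 2) (hN.entry hl 2 j))) fun a => ?_
  rw [Matrix.mul_apply, Fin.sum_univ_three]

theorem FT_det (hl : LPar A l) {M : ∀ a, Matrix (Fin 3) (Fin 3) (Fl (l a))} (hM : MT A l M) :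
    FT A l (fun a => (M a).det) := by
  have m : ∀ i j k : Fin 3, FT A l (fun a => M a 0 i * M a 1 j * M a 2 k) := fun i j k =>
    FT.mul hl (FT.mul hl (hM.entry hl 0 i) (hM.entry hl 1 j)) (hM.entry hl 2 k)
  refine FT.congr ((((((m 0 1 2).sub (m 0 2 1)).sub (m 1 0 2)).add (m 1 2 0)).add (m 2 0 1)).sub
    (m 2 1 0)) fun a => ?_
  rw [Matrix.det_fin_three]

theorem MT.adjugate (hl : LPar A l) {M : ∀ a, Matrix (Fin 3) (Fin 3) (Fl (l a))} (hM : MT A l M) :
    MT A l (fun a => (M a).adjugate) := by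
  have m : ∀ i j i' j' : Fin 3, FT A l (fun a => M a i j * M a i' j') := fun i j i' j' =>
    FT.mul hl (hM.entry hl i j) (hM.entry hl i' j')
  refine MT.mk hl fun i j => ?_
  simp only [Matrix.adjugate_fin_three]
  fin_cases i <;> fin_cases j
  · exact FT.congr ((m 1 1 2 2).sub (m 1 2 2 1)) fun a => by simp
  · exact FT.congr ((m 0 2 2 1).sub (m 0 1 2 2)) fun a => by simp; ring
  · exact FT.congr ((m 0 1 1 2).sub (m 0 2 1 1)) fun a => by simp
  · exact FT.congr ((m 1 2 2 0).sub (m 1 0 2 2)) fun a => by simp; ring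
  · exact FT.congr ((m 0 0 2 2).sub (m 0 2 2 0)) fun a => by simp
  · exact FT.congr ((m 0 2 1 0).sub (m 0 0 1 2)) fun a => by simp; ring
  · exact FT.congr ((m 1 0 2 1).sub (m 1 1 2 0)) fun a => by simp
  · exact FT.congr ((m 0 1 2 0).sub (m 0 0 2 1)) fun a => by simp; ring
  · exact FT.congr ((m 0 0 1 1).sub (m 0 1 1 0)) fun a => by simp

theorem MT.one (hl : LPar A l) :
    MT A l (fun _ => (1 : Matrix (Fin 3) (Fin 3) (Fl _))) := by
  refine MT.mk hl fun i j => ?_
  by_cases h : i = j
  · subst h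
    exact FT.congr FT.one fun a => by simp
  · exact FT.congr FT.zero fun a => by simp [h]

theorem PT_isG (hl : LPar A l) :
    PT A (fun q : α × ℕ => decide (isG (l q.1) (q.2 % 2 ^ (eF (l q.1) * 9)))) := by
  have hl' : LPar A (fun q : α × ℕ => l q.1) := hl.comp PT.fst'
  have h1 : PT A (fun q : α × ℕ => q.2 % 2 ^ (eF (l q.1) * 9)) :=
    PT.mod PT.snd' (PT.pow (PT.const 2) (PT.mul hl'.eF (PT.const 9))
      (hl'.eFbd.mul (PBd.const 9)))
  have h2 : MT A (fun q : α × ℕ => l q.1) (fun q => md (l q.1) (q.2 % 2 ^ (eF (l q.1) * 9))) :=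
    h1.congr fun q => (mc_md (Nat.mod_lt _ (by positivity))).symm
  classical
  refine (FT.eq (FT_det hl' h2) FT.one).congr fun q => ?_
  unfold isG
  exact decide_eq_decide.2 Iff.rfl

theorem filter_congr_mod (l N : ℕ) (hN : N ≤ 2 ^ (eF l * 9)) :
    (List.range N).filter (fun k => decide (isG l (k % 2 ^ (eF l * 9)))) =
      (List.range N).filter (fun k => decide (isG l k)) := by
  refine List.filter_congr fun k hk => ?_
  rw [Nat.mod_eq_of_lt (lt_of_lt_of_le (List.mem_range.1 hk) hN)]

theorem PT_cG (h : GPar A l) : PT A (fun a => cG (l a)) := by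
  refine (PT.length (PT.filter (f := fun a k => decide (isG (l a) (k % 2 ^ (eF (l a) * 9))))
    (PT.range h.pt9 h.bd9) (PT_isG h.toLPar))).congr fun a => ?_
  rw [filter_congr_mod _ _ le_rfl]
  unfold cG
  rw [count_eq_length]

theorem cG_le (l : ℕ) : cG l ≤ 2 ^ (eF l * 9) := Nat.count_le _

theorem PBd_cG (h : GPar A l) : PBd (fun a => cG (l a)) := h.bd9.mono fun _ => cG_le _

/-- From the number of the matrix to the number of the group element. -/
theorem GT.ofMT (h : GPar A l) {g : ∀ a, SL3 (l a)} (hg : MT A l (fun a => (g a).1)) :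
    GT A l g := by
  have hb : PBd (fun a => mc (l a) (g a).1) := h.bd9.mono fun a => (mc_lt _ _).le
  refine (PT.length (PT.filter (f := fun a k => decide (isG (l a) (k % 2 ^ (eF (l a) * 9))))
    (PT.range (k := fun a => mc (l a) (g a).1) hg hb) (PT_isG h.toLPar))).congr fun a => ?_
  rw [filter_congr_mod _ _ (mc_lt _ _).le]
  unfold gn
  rw [count_eq_length]

/-- From the number of the group element to the number of the matrix. -/
theorem GT.toMT (h : GPar A l) {g : ∀ a, SL3 (l a)} (hg : GT A l g) :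
    MT A l (fun a => (g a).1) := by
  refine (PT.getD (PT.filter (f := fun a k => decide (isG (l a) (k % 2 ^ (eF (l a) * 9))))
    (PT.range h.pt9 h.bd9) (PT_isG h.toLPar)) hg (PT.const 0)).congr fun a => ?_
  rw [filter_congr_mod _ _ le_rfl, ← mc_ge (gn_lt _), ge_gn]

theorem GT.congr {g g' : ∀ a, SL3 (l a)} (hg : GT A l g) (h : ∀ a, g a = g' a) : GT A l g' := by
  have : g = g' := funext h
  rwa [this] at hg

theorem GT.comp {β : Type*} [Enc β] {g : ∀ a, SL3 (l a)} (hg : GT A l g) {u : β → α}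
    (hu : PT A u) : GT A (fun b => l (u b)) (fun b => g (u b)) :=
  PT.comp (g := fun a => gn (l a) (g a)) hg hu

/-- Entries of a group element. -/
theorem GT.entry (h : GPar A l) {g : ∀ a, SL3 (l a)} (hg : GT A l g) (i j : Fin 3) :
    FT A l (fun a => g a i j) := (hg.toMT h).entry h.toLPar i j

/-- A group element given by its entries. -/
theorem GT.mk (h : GPar A l) {g : ∀ a, SL3 (l a)} (hg : ∀ i j, FT A l (fun a => g a i j)) :
    GT A l g := GT.ofMT h (MT.mk h.toLPar hg)

theorem GT.mul (h : GPar A l) {g g' : ∀ a, SL3 (l a)} (hg : GT A l g) (hg' : GT A l g') :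
    GT A l (fun a => g a * g' a) :=
  GT.ofMT h ((MT.mul h.toLPar (hg.toMT h) (hg'.toMT h)).congr fun _ => rfl)

theorem GT.inv (h : GPar A l) {g : ∀ a, SL3 (l a)} (hg : GT A l g) :
    GT A l (fun a => (g a)⁻¹) :=
  GT.ofMT h ((MT.adjugate h.toLPar (hg.toMT h)).congr fun _ => rfl)

theorem GT.one (h : GPar A l) : GT A l (fun _ => 1) :=
  GT.ofMT h ((MT.one h.toLPar).congr fun _ => rfl)

/-- The group element with a given number. -/
theorem GT.ofNum (h : GPar A l) {n : α → ℕ} (hn : PT A n) : GT A l (fun a => ge (l a) (n a)) := by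
  refine (PT.ite (p := fun a => n a < cG (l a)) (PT.lt hn (PT_cG h)) hn (GT.one h)).congr
    fun a => ?_
  beta_reduce
  by_cases h1 : n a < cG (l a)
  · rw [if_pos h1, gn_ge h1]
  · rw [if_neg h1, ge_of_not_lt h1]

theorem GT.ite {p : α → Prop} [DecidablePred p] (hp : PT A (fun a => decide (p a)))
    {g g' : ∀ a, SL3 (l a)} (hg : GT A l g) (hg' : GT A l g') :
    GT A l (fun a => if p a then g a else g' a) :=
  (PT.ite hp hg hg').congr fun a => by beta_reduce; split_ifs <;> rfl

theorem GT.eq {g g' : ∀ a, SL3 (l a)} [∀ a, Decidable (g a = g' a)] (hg : GT A l g)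
    (hg' : GT A l g') : PT A (fun a => decide (g a = g' a)) := by
  refine (PT.eqNat hg hg').congr fun a => ?_
  rw [decide_eq_decide]
  exact ⟨fun h => gn_inj h, fun h => by rw [h]⟩

/-- The bijection of the group elements with the numbers is preserved by permutations of the
group. -/
theorem gn_surj {l : ℕ} {v : ℕ} (hv : v < cG l) : ∃! g : SL3 l, gn l g = v :=
  ⟨ge l v, gn_ge hv, fun _ h => gn_inj (h.trans (gn_ge hv).symm)⟩

/-! ### Elementary matrices -/

/-- The elementary matrix with the entry `r` at the place `(i, j)`. -/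
noncomputable def el {l : ℕ} (i j : Fin 3) (hij : i ≠ j) (r : Fl l) : SL3 l :=
  ⟨transvection i j r, by rw [det_transvection_of_ne i j hij]⟩

theorem GT.el (h : GPar A l) (i j : Fin 3) (hij : i ≠ j) {r : ∀ a, Fl (l a)} (hr : FT A l r) :
    GT A l (fun a => el i j hij (r a)) := by
  refine GT.mk h fun i' j' => ?_
  show FT A l (fun a => (transvection i j (r a)) i' j')
  by_cases h1 : i' = i ∧ j' = j
  · obtain ⟨rfl, rfl⟩ := h1
    exact FT.congr hr fun a => by simp [transvection, hij]
  · by_cases h2 : i' = j'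
    · subst h2
      refine FT.congr FT.one fun a => ?_
      have h3 : ¬ (i = i' ∧ j = i') := fun h3 => hij (h3.1.trans h3.2.symm)
      simp [transvection, h3]
    · refine FT.congr FT.zero fun a => ?_
      have h3 : ¬ (i = i' ∧ j = j') := fun h3 => h1 ⟨h3.1.symm, h3.2.symm⟩
      simp [transvection, h3, h2]

/-! ### Vectors -/

/-- `g u` for a vector `u` -/
theorem FT_mulVec (hl : LPar A l) {M : ∀ a, Matrix (Fin 3) (Fin 3) (Fl (l a))} (hM : MT A l M)
    {u : ∀ a, Fin 3 → Fl (l a)} (hu : ∀ i, FT A l (fun a => u a i)) (i : Fin 3) :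
    FT A l (fun a => (M a).mulVec (u a) i) := by
  refine FT.congr (((FT.mul hl (hM.entry hl i 0) (hu 0)).add
    (FT.mul hl (hM.entry hl i 1) (hu 1))).add (FT.mul hl (hM.entry hl i 2) (hu 2))) fun a => ?_
  rw [Matrix.mulVec, dotProduct, Fin.sum_univ_three]

end Vale.Agent.P330.H604
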