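import Vale.Agent.P330.H155.Alg
import Vale.Agent.P330.W.H604.Gam

/-!
# The sites `J × SL_3` as numbers

`JNum` : a numbering of the groups `J a` by the numbers `< 2 ^ κ a`, with polynomial time action.
The number of the site `(x, v)` is `num x + 2 ^ κ * gn v`.  `ST x` : the number of the site `x a` is
computable in polynomial time; the wires of the network are functions of this kind.
-/

namespace Vale.Agent.P330.H604

open Vale.Agent.Lib.PolyTime Vale.Agent.P330.H933 Vale.Agent.P330.H155 Matrix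

variable {A : Set Word} {α : Type} [Enc α] {l : α → ℕ}

/-- A numbering of the additive groups `J a` (exponent two), with polynomial time action of
`SL_3(Fl (l a))`. -/
structure JNum (A : Set Word) (l : α → ℕ) (J : α → Type) [∀ a, AddCommGroup (J a)]
    [∀ a, DistribMulAction (SL3 (l a)) (J a)] where
  κ : α → ℕ
  num : ∀ a, J a → ℕ
  val : ∀ a, ℕ → J a
  num_lt : ∀ a x, num a x < 2 ^ κ a
  val_num : ∀ a x, val a (num a x) = x
  num_val : ∀ a n, n < 2 ^ κ a → num a (val a n) = n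
  num_add : ∀ a x y, num a (x + y) = num a x ^^^ num a y
  κ_pt : PT A κ
  κ_bd : PBd (fun a => 2 ^ κ a)
  act_pt : PT A (fun p : α × ℕ × ℕ => num p.1 (ge (l p.1) p.2.1 • val p.1 p.2.2))

section

variable {J : α → Type} [∀ a, AddCommGroup (J a)] [∀ a, DistribMulAction (SL3 (l a)) (J a)]
  (N : JNum A l J)

namespace JNum

theorem num_zero (a : α) : N.num a 0 = 0 := by
  have h := N.num_add a 0 0
  rw [add_zero, Nat.xor_self] at h
  exact h

theorem num_inj {a : α} {x y : J a} (h : N.num a x = N.num a y) : x = y := by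
  rw [← N.val_num a x, h, N.val_num]

theorem κbd : PBd N.κ := N.κ_bd.mono fun _ => (Nat.lt_two_pow_self).le

theorem pt_pow : PT A (fun a => 2 ^ N.κ a) := PT.pow (PT.const 2) N.κ_pt N.κbd

/-- The numbering of `J a`. -/
def equiv (a : α) : J a ≃ Fin (2 ^ N.κ a) where
  toFun x := ⟨N.num a x, N.num_lt a x⟩
  invFun n := N.val a n
  left_inv x := N.val_num a x
  right_inv n := Fin.ext (N.num_val a n n.2)

/-! ### Elements of `J` in polynomial time -/

/-- `N.JT u x`: the number of the element `x b` of `J (u b)` is computable in polynomial time. -/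
def JT {β : Type} [Enc β] (u : β → α) (x : ∀ b, J (u b)) : Prop :=
  PT A (fun b => N.num (u b) (x b))

variable {N} {β : Type} [Enc β] {u : β → α}

theorem JT.congr {x y : ∀ b, J (u b)} (hx : N.JT u x) (h : ∀ b, x b = y b) : N.JT u y := by
  have : x = y := funext h
  rwa [this] at hx

theorem JT.comp {γ : Type} [Enc γ] {x : ∀ b, J (u b)} (hx : N.JT u x) {w : γ → β}
    (hw : PT A w) : N.JT (fun c => u (w c)) (fun c => x (w c)) :=
  PT.comp (g := fun b => N.num (u b) (x b)) hx hw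

theorem JT.add {x y : ∀ b, J (u b)} (hx : N.JT u x) (hy : N.JT u y) :
    N.JT u (fun b => x b + y b) :=
  (PT.natXor hx hy).congr fun _ => (N.num_add _ _ _).symm

theorem JT.zero : N.JT u (fun _ => 0) := (PT.const 0).congr fun b => (N.num_zero (u b)).symm

theorem JT.smul (hu : PT A u) {g : ∀ b, SL3 (l (u b))} (hg : GT A (fun b => l (u b)) g)
    {x : ∀ b, J (u b)} (hx : N.JT u x) : N.JT u (fun b => g b • x b) := by
  refine (PT.comp (f := fun b => (u b, gn (l (u b)) (g b), N.num (u b) (x b))) N.act_pt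
    (hu.pair (PT.pair hg hx))).congr fun b => ?_
  beta_reduce
  rw [ge_gn, N.val_num]

theorem JT.ofNum (hu : PT A u) {n : β → ℕ} (hn : PT A n) :
    N.JT u (fun b => N.val (u b) (n b % 2 ^ N.κ (u b))) :=
  (PT.mod hn (N.pt_pow.comp hu)).congr fun b =>
    (N.num_val _ _ (Nat.mod_lt _ (by positivity))).symm

theorem JT.ite {p : β → Prop} [DecidablePred p] (hp : PT A (fun b => decide (p b)))
    {x y : ∀ b, J (u b)} (hx : N.JT u x) (hy : N.JT u y) :
    N.JT u (fun b => if p b then x b else y b) :=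
  (PT.ite hp hx hy).congr fun b => by beta_reduce; split_ifs <;> rfl

end JNum

/-! ### Sites -/

/-- the number of a site -/
noncomputable def JNum.sn (a : α) (h : J a × SL3 (l a)) : ℕ :=
  N.num a h.1 + 2 ^ N.κ a * gn (l a) h.2

/-- the number of sites -/
noncomputable def JNum.sc (a : α) : ℕ := 2 ^ N.κ a * cG (l a)

/-- the site with a given number -/
noncomputable def JNum.sv (a : α) (n : ℕ) : J a × SL3 (l a) :=
  (N.val a (n % 2 ^ N.κ a), ge (l a) (n / 2 ^ N.κ a))

namespace JNum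

theorem sn_lt (a : α) (h : J a × SL3 (l a)) : N.sn a h < N.sc a := by
  unfold sn sc
  have h1 := N.num_lt a h.1
  have h2 := gn_lt h.2
  calc N.num a h.1 + 2 ^ N.κ a * gn (l a) h.2 < 2 ^ N.κ a + 2 ^ N.κ a * gn (l a) h.2 := by omega
    _ = 2 ^ N.κ a * (gn (l a) h.2 + 1) := by ring
    _ ≤ 2 ^ N.κ a * cG (l a) := Nat.mul_le_mul_left _ h2

theorem sn_mod (a : α) (h : J a × SL3 (l a)) : N.sn a h % 2 ^ N.κ a = N.num a h.1 := by
  unfold sn
  rw [Nat.add_mul_mod_self_left, Nat.mod_eq_of_lt (N.num_lt a h.1)]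

theorem sn_div (a : α) (h : J a × SL3 (l a)) : N.sn a h / 2 ^ N.κ a = gn (l a) h.2 := by
  unfold sn
  rw [Nat.add_mul_div_left _ _ (by positivity), Nat.div_eq_of_lt (N.num_lt a h.1), zero_add]

theorem sv_sn (a : α) (h : J a × SL3 (l a)) : N.sv a (N.sn a h) = h := by
  unfold sv
  rw [sn_mod, sn_div, N.val_num, ge_gn]

theorem sn_sv {a : α} {n : ℕ} (hn : n < N.sc a) : N.sn a (N.sv a n) = n := by
  unfold sn sv
  have h1 : n / 2 ^ N.κ a < cG (l a) := Nat.div_lt_of_lt_mul hn
  rw [N.num_val _ _ (Nat.mod_lt _ (by positivity)), gn_ge h1, Nat.mod_add_div]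

theorem sn_inj {a : α} {h h' : J a × SL3 (l a)} (e : N.sn a h = N.sn a h') : h = h' := by
  rw [← N.sv_sn a h, e, N.sv_sn]

/-- The numbering of the sites. -/
noncomputable def sE (a : α) : J a × SL3 (l a) ≃ Fin (N.sc a) where
  toFun h := ⟨N.sn a h, N.sn_lt a h⟩
  invFun n := N.sv a n
  left_inv h := N.sv_sn a h
  right_inv n := Fin.ext (N.sn_sv n.2)

theorem PT_sc (h : GPar A l) : PT A N.sc := PT.mul N.pt_pow (PT_cG h)

theorem PBd_sc (h : GPar A l) : PBd N.sc := N.κ_bd.mul (PBd_cG h)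

/-- `N.ST u h`: the number of the site `h b` is computable in polynomial time. -/
def ST {β : Type} [Enc β] (u : β → α) (h : ∀ b, J (u b) × SL3 (l (u b))) : Prop :=
  PT A (fun b => N.sn (u b) (h b))

variable {N} {β : Type} [Enc β] {u : β → α}

theorem ST.congr {h h' : ∀ b, J (u b) × SL3 (l (u b))} (hh : N.ST u h) (e : ∀ b, h b = h' b) :
    N.ST u h' := by
  have : h = h' := funext e
  rwa [this] at hh

theorem ST.comp {γ : Type} [Enc γ] {h : ∀ b, J (u b) × SL3 (l (u b))} (hh : N.ST u h)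
    {w : γ → β} (hw : PT A w) : N.ST (fun c => u (w c)) (fun c => h (w c)) :=
  PT.comp (g := fun b => N.sn (u b) (h b)) hh hw

theorem ST.mk (hu : PT A u) {x : ∀ b, J (u b)} {v : ∀ b, SL3 (l (u b))} (hx : N.JT u x)
    (hv : GT A (fun b => l (u b)) v) : N.ST u (fun b => (x b, v b)) :=
  PT.add hx (PT.mul (N.pt_pow.comp hu) hv)

theorem ST.fst (hu : PT A u) {h : ∀ b, J (u b) × SL3 (l (u b))} (hh : N.ST u h) :
    N.JT u (fun b => (h b).1) :=
  (PT.mod hh (N.pt_pow.comp hu)).congr fun _ => N.sn_mod _ _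

theorem ST.snd (hu : PT A u) {h : ∀ b, J (u b) × SL3 (l (u b))} (hh : N.ST u h) :
    GT A (fun b => l (u b)) (fun b => (h b).2) :=
  (PT.div hh (N.pt_pow.comp hu)).congr fun _ => N.sn_div _ _

theorem ST.ofNum (hl : GPar A l) (hu : PT A u) {n : β → ℕ} (hn : PT A n) :
    N.ST u (fun b => N.sv (u b) (n b)) :=
  ST.mk hu (JT.ofNum hu hn) (GT.ofNum (hl.comp hu) (PT.div hn (N.pt_pow.comp hu)))

/-! ### The wires -/

theorem ST.lt (hl : GPar A l) (hu : PT A u) {z : ∀ b, J (u b)} (hz : N.JT u z)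
    {g : ∀ b, SL3 (l (u b))} (hg : GT A (fun b => l (u b)) g)
    {h : ∀ b, J (u b) × SL3 (l (u b))} (hh : N.ST u h) :
    N.ST u (fun b => H155.lt (z b) (g b) (h b)) :=
  ST.mk hu (hz.add (JT.smul hu hg (hh.fst hu))) (GT.mul (hl.comp hu) hg (hh.snd hu))

theorem ST.inv2 (hl : GPar A l) (hu : PT A u) {h : ∀ b, J (u b) × SL3 (l (u b))}
    (hh : N.ST u h) : N.ST u (fun b => H155.inv2 (h b)) :=
  ST.mk hu (JT.smul hu (GT.inv (hl.comp hu) (hh.snd hu)) (hh.fst hu))
    (GT.inv (hl.comp hu) (hh.snd hu))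

/-- Right translation by `(y, g)`. -/
def rt {X G : Type} [AddCommGroup X] [Group G] [DistribMulAction G X] (y : X) (g : G)
    (h : X × G) : X × G := (h.1 + h.2 • y, h.2 * g)

theorem ST.rt (hl : GPar A l) (hu : PT A u) {y : ∀ b, J (u b)} (hy : N.JT u y)
    {g : ∀ b, SL3 (l (u b))} (hg : GT A (fun b => l (u b)) g)
    {h : ∀ b, J (u b) × SL3 (l (u b))} (hh : N.ST u h) :
    N.ST u (fun b => JNum.rt (y b) (g b) (h b)) :=
  ST.mk hu ((hh.fst hu).add (JT.smul hu (hh.snd hu) hy)) (GT.mul (hl.comp hu) (hh.snd hu) hg)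

/-- Right translation by the inverse of the label `b`: `nb` of `H155`. -/
theorem ST.nb (hl : GPar A l) (hu : PT A u) {y : ∀ b, J (u b)} (hy : N.JT u y)
    {g : ∀ b, SL3 (l (u b))} (hg : GT A (fun b => l (u b)) g)
    {h : ∀ b, J (u b) × SL3 (l (u b))} (hh : N.ST u h) :
    N.ST u (fun b => ((h b).1 + ((h b).2 * (g b)⁻¹) • y b, (h b).2 * (g b)⁻¹)) := by
  have h1 : GT A (fun b => l (u b)) (fun b => (h b).2 * (g b)⁻¹) :=
    GT.mul (hl.comp hu) (hh.snd hu) (GT.inv (hl.comp hu) hg)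
  exact ST.mk hu ((hh.fst hu).add (JT.smul hu h1 hy)) h1

/-- The inverse of `nb` (`eP` of `H840`). -/
theorem ST.eP (hl : GPar A l) (hu : PT A u) {y : ∀ b, J (u b)} (hy : N.JT u y)
    {g : ∀ b, SL3 (l (u b))} (hg : GT A (fun b => l (u b)) g)
    {h : ∀ b, J (u b) × SL3 (l (u b))} (hh : N.ST u h) :
    N.ST u (fun b => ((h b).1 - (h b).2 • y b, (h b).2 * g b)) := by
  refine (ST.rt hl hu hy hg hh).congr fun b => ?_
  have h2 : ∀ x : J (u b), -x = x := fun x => by
    have e : x + x = 0 := by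
      apply N.num_inj
      rw [N.num_add, Nat.xor_self, N.num_zero]
    exact neg_eq_of_add_eq_zero_right e
  show ((h b).1 + (h b).2 • y b, _) = _
  rw [sub_eq_add_neg, h2]

theorem ST.ite {p : β → Prop} [DecidablePred p] (hp : PT A (fun b => decide (p b)))
    {h h' : ∀ b, J (u b) × SL3 (l (u b))} (hh : N.ST u h) (hh' : N.ST u h') :
    N.ST u (fun b => if p b then h b else h' b) :=
  (PT.ite hp hh hh').congr fun b => by beta_reduce; split_ifs <;> rfl

/-- A wire as a function on numbers. -/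
noncomputable def wN (N : JNum A l J) (w : ∀ a, J a × SL3 (l a) → J a × SL3 (l a)) (a : α)
    (n : ℕ) : ℕ := N.sn a (w a (N.sv a n))

theorem wN_sn (w : ∀ a, J a × SL3 (l a) → J a × SL3 (l a)) (a : α) (h : J a × SL3 (l a)) :
    wN N w a (N.sn a h) = N.sn a (w a h) := by
  unfold wN
  rw [N.sv_sn]

theorem wN_lt (w : ∀ a, J a × SL3 (l a) → J a × SL3 (l a)) (a : α) (n : ℕ) :
    wN N w a n < N.sc a := N.sn_lt _ _

end JNum

end

end Vale.Agent.P330.H604
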