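import Vale.Agent.P330.W.H604.Site
import Vale.Agent.P330.W.H972.Match

/-!
# Letters, words and labels as numbers

A label is a word in finitely many letters of the group `J ⋊ SL_3`; here the letters are pairs
`(x, v)` and words are multiplied with `mulP`.
-/

namespace Vale.Agent.P330.H604

open Vale.Agent.Lib.PolyTime Vale.Agent.P330.H933 Vale.Agent.P330.H155 Matrix
open Vale.Agent.P330.W.H972 (wordG padG labels)

/-- Case distinction over finitely many numbers. -/
theorem PT_cases {A : Set Word} {β : Type*} [Enc β] (n : ℕ) {f : Fin n → β → ℕ} {d : β → ℕ}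
    (h : ∀ i, PT A (f i)) (hd : PT A d) {c : β → ℕ} (hc : PT A c) :
    PT A (fun b => if h : c b < n then f ⟨c b, h⟩ b else d b) := by
  induction n with
  | zero => exact hd.congr fun b => by simp
  | succ n ih =>
    have h1 := ih (f := fun i => f i.castSucc) fun i => h _
    refine (PT.ite (p := fun b => c b = n) (PT.eqNat hc (PT.const n)) (h (Fin.last n)) h1).congr
      fun b => ?_
    by_cases h2 : c b = n
    · rw [if_pos h2, dif_pos (by omega)]
      congr 1
      exact Fin.ext h2.symm
    · rw [if_neg h2]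
      by_cases h3 : c b < n
      · rw [dif_pos h3, dif_pos (by omega)]
        rfl
      · rw [dif_neg h3, dif_neg (by omega)]

section mulP

variable {X G : Type} [AddCommGroup X] [Group G] [DistribMulAction G X]

/-- multiplication of pairs -/
def mulP (h h' : X × G) : X × G := (h.1 + h.2 • h'.1, h.2 * h'.2)

/-- inverse of a pair -/
def invP (h : X × G) : X × G := (-(h.2⁻¹ • h.1), h.2⁻¹)

theorem mulP_assoc (a b c : X × G) : mulP (mulP a b) c = mulP a (mulP b c) := by
  simp [mulP, mul_smul, smul_add, add_assoc, mul_assoc]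

theorem mulP_one (a : X × G) : mulP a (0, 1) = a := by simp [mulP]

theorem one_mulP (a : X × G) : mulP (0, 1) a = a := by simp [mulP]

theorem lt_eq_mulP (z : X) (g : G) (h : X × G) : H155.lt z g h = mulP (z, g) h := rfl

theorem mulP_invP (a : X × G) : mulP a (invP a) = (0, 1) := by simp [mulP, invP]

theorem invP_mulP (a : X × G) : mulP (invP a) a = (0, 1) := by simp [mulP, invP]

theorem nb_eq_mulP (two : ∀ x : X, x + x = 0) (y : X) (g : G) (h : X × G) :
    (h.1 + (h.2 * g⁻¹) • y, h.2 * g⁻¹) = mulP h (invP (y, g)) := by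
  have h2 : ∀ x : X, -x = x := fun x => neg_eq_of_add_eq_zero_right (two x)
  simp [mulP, invP, h2, mul_smul]

/-- the label with number `b`: a word of `t` letters, given by the digits of `b` in base
`2 ^ j`; digits `≥ n0` stand for the neutral element -/
def labP {n0 : ℕ} (lett : Fin n0 → X × G) (j : ℕ) : ℕ → ℕ → X × G
  | 0, _ => (0, 1)
  | t + 1, b => mulP (if h : b % 2 ^ j < n0 then lett ⟨b % 2 ^ j, h⟩ else (0, 1))
      (labP lett j t (b / 2 ^ j))

/-- The labels of `H972`, transported to pairs. -/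
theorem labels_eq {H : Type*} [Group H] (e : H → X × G) (he1 : e 1 = (0, 1))
    (hem : ∀ x y, e (x * y) = mulP (e x) (e y)) {n0 : ℕ} (α0 : Fin n0 → H) (j t : ℕ)
    (b : Fin (2 ^ (j * t))) :
    e (labels α0 j t b) = labP (fun i => e (α0 i)) j t b := by
  have key : ∀ (t : ℕ) (w : Fin t → Fin (2 ^ j)) (b : ℕ), (∀ i : Fin t,
      (w i : ℕ) = b / (2 ^ j) ^ (i : ℕ) % 2 ^ j) →
      e (wordG (padG α0 (2 ^ j)) t w) = labP (fun i => e (α0 i)) j t b := by
    intro t
    induction t with
    | zero => intro w b _; exact he1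
    | succ t ih =>
      intro w b hw
      show e (padG α0 (2 ^ j) (w 0) * wordG (padG α0 (2 ^ j)) t (fun i => w i.succ)) = _
      rw [hem, ih _ (b / 2 ^ j) fun i => ?_]
      · show mulP _ _ = mulP _ _
        congr 1
        have h0 := hw 0
        simp only [Fin.val_zero, pow_zero, Nat.div_one] at h0
        unfold padG
        by_cases h1 : b % 2 ^ j < n0
        · have h2 : (w 0 : ℕ) < n0 := by omega
          rw [dif_pos h2, dif_pos h1]
          congr 2
          exact Fin.ext h0
        · have h2 : ¬ (w 0 : ℕ) < n0 := by omega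
          rw [dif_neg h2, dif_neg h1, he1]
      · rw [hw i.succ, Fin.val_succ, pow_succ', Nat.div_div_eq_div_mul]
  unfold labels
  refine key t _ b fun i => ?_
  rw [finFunctionFinEquiv_symm_apply_val]
  simp

end mulP

/-! ### Polynomial time -/

variable {A : Set Word} {α : Type} [Enc α] {l : α → ℕ}
variable {J : α → Type} [∀ a, AddCommGroup (J a)] [∀ a, DistribMulAction (SL3 (l a)) (J a)]
variable {N : JNum A l J} {β : Type} [Enc β] {u : β → α}

namespace JNum

theorem ST.mulP (hl : GPar A l) (hu : PT A u) {h h' : ∀ b, J (u b) × SL3 (l (u b))}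
    (hh : N.ST u h) (hh' : N.ST u h') : N.ST u (fun b => H604.mulP (h b) (h' b)) :=
  ST.lt hl hu (hh.fst hu) (hh.snd hu) hh'

theorem ST.one (hl : GPar A l) (hu : PT A u) : N.ST u (fun _ => (0, 1)) :=
  ST.mk hu JT.zero (GT.one (hl.comp hu))

theorem JT.neg {x : ∀ b, J (u b)} (hx : N.JT u x) : N.JT u (fun b => -x b) := by
  refine hx.congr fun b => ?_
  have e : x b + x b = 0 := by
    apply N.num_inj
    rw [N.num_add, Nat.xor_self, N.num_zero]
  exact (neg_eq_of_add_eq_zero_right e).symm

theorem ST.invP (hl : GPar A l) (hu : PT A u) {h : ∀ b, J (u b) × SL3 (l (u b))}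
    (hh : N.ST u h) : N.ST u (fun b => H604.invP (h b)) :=
  ST.mk hu (JT.smul hu (GT.inv (hl.comp hu) (hh.snd hu)) (hh.fst hu)).neg
    (GT.inv (hl.comp hu) (hh.snd hu))

/-- One of finitely many sites. -/
theorem ST.cases (n : ℕ) {f : Fin n → ∀ b, J (u b) × SL3 (l (u b))}
    {d : ∀ b, J (u b) × SL3 (l (u b))} (h : ∀ i, N.ST u (f i)) (hd : N.ST u d) {c : β → ℕ}
    (hc : PT A c) : N.ST u (fun b => if h : c b < n then f ⟨c b, h⟩ b else d b) :=
  (PT_cases n h hd hc).congr fun b => by
    beta_reduce
    split_ifs <;> rfl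

/-- The labels are computable in polynomial time, also as functions of their numbers. -/
theorem ST.labP (hl : GPar A l) (hu : PT A u) {n0 : ℕ}
    {lett : ∀ b, Fin n0 → J (u b) × SL3 (l (u b))} (h : ∀ i, N.ST u (fun b => lett b i))
    (j t : ℕ) {c : β → ℕ} (hc : PT A c) :
    N.ST u (fun b => H604.labP (lett b) j t (c b)) := by
  induction t generalizing c with
  | zero => exact ST.one hl hu
  | succ t ih =>
    refine ST.mulP hl hu (ST.cases (c := fun b => c b % 2 ^ j) (d := fun _ => (0, 1))
      (f := fun i b => lett b i) n0 h (ST.one hl hu)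
      (PT.mod hc (PT.const (2 ^ j)))) ?_
    exact ih (PT.div hc (PT.const (2 ^ j)))

end JNum

/-! ### The letters -/

/-- The elementary matrices with an entry `1` (numbers `0, …, 5`) or the generator of the field
(numbers `6, …, 11`). -/
noncomputable def elt (l : ℕ) (i : Fin 12) : SL3 l :=
  match i with
  | 0 => el 0 1 (by decide) 1
  | 1 => el 0 2 (by decide) 1
  | 2 => el 1 0 (by decide) 1
  | 3 => el 1 2 (by decide) 1
  | 4 => el 2 0 (by decide) 1
  | 5 => el 2 1 (by decide) 1
  | 6 => el 0 1 (by decide) (th l)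
  | 7 => el 0 2 (by decide) (th l)
  | 8 => el 1 0 (by decide) (th l)
  | 9 => el 1 2 (by decide) (th l)
  | 10 => el 2 0 (by decide) (th l)
  | 11 => el 2 1 (by decide) (th l)

theorem GT.elt (h : GPar A l) (i : Fin 12) : GT A l (fun a => elt (l a) i) := by
  have h1 : FT A l (fun a => (1 : Fl (l a))) := FT.one
  have h2 : FT A l (fun a => th (l a)) := FT.th h.toLPar
  fin_cases i
  · exact GT.el h 0 1 (by decide) h1
  · exact GT.el h 0 2 (by decide) h1
  · exact GT.el h 1 0 (by decide) h1
  · exact GT.el h 1 2 (by decide) h1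
  · exact GT.el h 2 0 (by decide) h1
  · exact GT.el h 2 1 (by decide) h1
  · exact GT.el h 0 1 (by decide) h2
  · exact GT.el h 0 2 (by decide) h2
  · exact GT.el h 1 0 (by decide) h2
  · exact GT.el h 1 2 (by decide) h2
  · exact GT.el h 2 0 (by decide) h2
  · exact GT.el h 2 1 (by decide) h2

/-- Elementary matrices are given by transvections. -/
theorem coe_el {l : ℕ} (i j : Fin 3) (hij : i ≠ j) (r : Fl l) :
    ((el i j hij r : SL3 l) : Matrix (Fin 3) (Fin 3) (Fl l)) = transvection i j r := rfl

theorem exists_elt_one (l : ℕ) (i j : Fin 3) (hij : i ≠ j) : ∃ k, elt l k = el i j hij 1 := by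
  fin_cases i <;> fin_cases j <;> first
    | exact absurd rfl hij
    | exact ⟨0, rfl⟩ | exact ⟨1, rfl⟩ | exact ⟨2, rfl⟩ | exact ⟨3, rfl⟩ | exact ⟨4, rfl⟩
    | exact ⟨5, rfl⟩

theorem exists_elt_th (l : ℕ) (i j : Fin 3) (hij : i ≠ j) :
    ∃ k, elt l k = el i j hij (th l) := by
  fin_cases i <;> fin_cases j <;> first
    | exact absurd rfl hij
    | exact ⟨6, rfl⟩ | exact ⟨7, rfl⟩ | exact ⟨8, rfl⟩ | exact ⟨9, rfl⟩ | exact ⟨10, rfl⟩
    | exact ⟨11, rfl⟩

theorem elt_mul_self (l : ℕ) (k : Fin 12) : elt l k * elt l k = 1 := by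
  have key : ∀ (i j : Fin 3) (hij : i ≠ j) (r : Fl l), el i j hij r * el i j hij r = 1 := by
    intro i j hij r
    apply Subtype.ext
    show transvection i j r * transvection i j r = 1
    rw [transvection_mul_transvection_same _ _ hij, CharTwo.add_self_eq_zero, transvection_zero]
  fin_cases k <;> exact key _ _ (by decide) _

end Vale.Agent.P330.H604
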