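import Vale.Agent.P330.W.H840.Sys
import Vale.Agent.P330.W.H604.Lab

/-!
# The wires of the concrete register system, with numbers in polynomial time
-/

set_option linter.unusedSectionVars false

namespace Vale.Agent.P330.H604

open Vale.Agent.Lib.PolyTime Vale.Agent.P330.H933 Vale.Agent.P330.H155 Matrix
open Vale.Agent.P330.H840 (Wires)

/-- The names of the wires: the own site, the neighbours, the two-step neighbours, left
translations by the labels, the inverse, left translations by `tg` and by `tj`, and copies of the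
two-step neighbours. -/
abbrev WT (B TG TJ : Type) (nx : ℕ) : Type :=
  Unit ⊕ B ⊕ (B × B) ⊕ B ⊕ Unit ⊕ TG ⊕ TJ ⊕ (Fin nx × B × B)

section

variable {J Γ B F : Type} [AddCommGroup J] [Fintype J] [Group Γ] [Fintype Γ]
  [DistribMulAction Γ J] [Field F] (S : Cd J Γ B F) {TG TJ : Type} (tg : TG → Γ) (tj : TJ → J)
  (nx : ℕ)

/-- The permutation given by a wire. -/
def wperm : WT B TG TJ nx → Equiv.Perm (J × Γ)
  | .inl _ => Equiv.refl _
  | .inr (.inl b) => (H840.eP S b).symm
  | .inr (.inr (.inl p)) => (H840.eP S p.1).trans (H840.eP S p.2).symm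
  | .inr (.inr (.inr (.inl b))) => H840.ltP (S.bet b) (S.eta b)
  | .inr (.inr (.inr (.inr (.inl _)))) => H840.invP
  | .inr (.inr (.inr (.inr (.inr (.inl t))))) => H840.ltP 0 (tg t)
  | .inr (.inr (.inr (.inr (.inr (.inr (.inl s)))))) => H840.ltP (tj s) 1
  | .inr (.inr (.inr (.inr (.inr (.inr (.inr p)))))) =>
    (H840.eP S p.2.1).trans (H840.eP S p.2.2).symm

variable [Fintype B] [Fintype TG] [Fintype TJ]

/-- The number of wires. -/
def wK (B TG TJ : Type) (nx : ℕ) [Fintype B] [Fintype TG] [Fintype TJ] : ℕ :=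
  Fintype.card (WT B TG TJ nx)

theorem wK_eq (B TG TJ : Type) (nx : ℕ) [Fintype B] [Fintype TG] [Fintype TJ] :
    wK B TG TJ nx = 2 + 2 * Fintype.card B + Fintype.card B ^ 2 + Fintype.card TG +
      Fintype.card TJ + nx * Fintype.card B ^ 2 := by
  unfold wK WT
  simp only [Fintype.card_sum, Fintype.card_prod, Fintype.card_unit, Fintype.card_fin]
  ring

/-- Numbers of the names of the wires. -/
noncomputable def wKe (B TG TJ : Type) (nx : ℕ) [Fintype B] [Fintype TG] [Fintype TJ] :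
    WT B TG TJ nx ≃ Fin (wK B TG TJ nx) := Fintype.equivFin _

/-- The wires. -/
noncomputable def mkWires : Wires S tg tj (wK B TG TJ nx) where
  wr i := wperm S tg tj nx ((wKe B TG TJ nx).symm i)
  own := wKe B TG TJ nx (.inl ())
  own_eq h := by rw [Equiv.symm_apply_apply]; rfl
  nbw b := wKe B TG TJ nx (.inr (.inl b))
  nbw_eq b h := by rw [Equiv.symm_apply_apply]; rfl
  hw b b' := wKe B TG TJ nx (.inr (.inr (.inl (b, b'))))
  hw_eq b b' h := by rw [Equiv.symm_apply_apply]; rfl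
  lw b := wKe B TG TJ nx (.inr (.inr (.inr (.inl b))))
  lw_eq b h := by rw [Equiv.symm_apply_apply]; rfl
  iw := wKe B TG TJ nx (.inr (.inr (.inr (.inr (.inl ())))))
  iw_eq h := by rw [Equiv.symm_apply_apply]; rfl
  gw t := wKe B TG TJ nx (.inr (.inr (.inr (.inr (.inr (.inl t))))))
  gw_eq t h := by rw [Equiv.symm_apply_apply]; rfl
  jw s := wKe B TG TJ nx (.inr (.inr (.inr (.inr (.inr (.inr (.inl s)))))))
  jw_eq s h := by rw [Equiv.symm_apply_apply]; rfl
  nx := nx
  ex := ⟨fun p => wKe B TG TJ nx (.inr (.inr (.inr (.inr (.inr (.inr (.inr p))))))), by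
    intro p p' h
    simpa using (wKe B TG TJ nx).injective h⟩
  ex_eq r b b' h := by
    show (wperm S tg tj nx ((wKe B TG TJ nx).symm (wKe B TG TJ nx _))) h = _
    rw [Equiv.symm_apply_apply]; rfl

@[simp] theorem mkWires_nx : (mkWires S tg tj nx).nx = nx := rfl

theorem mkWires_wr (i : Fin (wK B TG TJ nx)) :
    (mkWires S tg tj nx).wr i = wperm S tg tj nx ((wKe B TG TJ nx).symm i) := rfl

theorem mkWires_own : (mkWires S tg tj nx).own = wKe B TG TJ nx (.inl ()) := rfl

end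

/-! ### Numbers -/

section

variable {A : Set Word} {α : Type} [Enc α] {l : α → ℕ}
  {J : α → Type} [∀ a, AddCommGroup (J a)] [∀ a, Fintype (J a)]
  [∀ a, DistribMulAction (SL3 (l a)) (J a)] {N : JNum A l J}
  {B TG TJ : Type} {F : α → Type} [∀ a, Field (F a)]
  {S : ∀ a, Cd (J a) (SL3 (l a)) B (F a)} {tg : ∀ a, TG → SL3 (l a)} {tj : ∀ a, TJ → J a}
  {nx : ℕ}

/-- All wires are computable in polynomial time. -/
theorem ST_wperm (hl : GPar A l) (hbet : ∀ b, N.JT (fun a => a) (fun a => (S a).bet b))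
    (heta : ∀ b, GT A l (fun a => (S a).eta b)) (htg : ∀ t, GT A l (fun a => tg a t))
    (htj : ∀ s, N.JT (fun a => a) (fun a => tj a s)) {β : Type} [Enc β] {u : β → α}
    (hu : PT A u) {h : ∀ b, J (u b) × SL3 (l (u b))} (hh : N.ST u h) (k : WT B TG TJ nx) :
    N.ST u (fun b => wperm (S (u b)) (tg (u b)) (tj (u b)) nx k (h b)) := by
  have hb : ∀ c, N.JT u (fun b => (S (u b)).bet c) := fun c => (hbet c).comp hu
  have he : ∀ c, GT A (fun b => l (u b)) (fun b => (S (u b)).eta c) := fun c =>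
    GT.comp (heta c) hu
  rcases k with _ | c | p | c | _ | t | s | p
  · exact hh
  · exact JNum.ST.nb hl hu (hb c) (he c) hh
  · exact JNum.ST.nb hl hu (hb p.2) (he p.2) (JNum.ST.eP hl hu (hb p.1) (he p.1) hh)
  · exact JNum.ST.lt hl hu (hb c) (he c) hh
  · exact JNum.ST.inv2 hl hu hh
  · exact JNum.ST.lt hl hu JNum.JT.zero (GT.comp (htg t) hu) hh
  · exact JNum.ST.lt hl hu ((htj s).comp hu) (GT.one (hl.comp hu)) hh
  · exact JNum.ST.nb hl hu (hb p.2.2) (he p.2.2)
      (JNum.ST.eP hl hu (hb p.2.1) (he p.2.1) hh)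

/-- A family of wires as functions on numbers. -/
noncomputable def wrNum (N : JNum A l J) (w : ∀ a, J a × SL3 (l a) → J a × SL3 (l a))
    (p : α × ℕ) : ℕ := JNum.wN N w p.1 p.2

theorem wrNum_eq (N : JNum A l J) (w : ∀ a, J a × SL3 (l a) → J a × SL3 (l a)) (a : α)
    (h : J a × SL3 (l a)) : wrNum N w (a, (N.sE a h : ℕ)) = (N.sE a (w a h) : ℕ) :=
  JNum.wN_sn w a h

theorem wrNum_pt {w : ∀ a, J a × SL3 (l a) → J a × SL3 (l a)}
    (hw : N.ST (fun p : α × ℕ => p.1) (fun p => w p.1 (N.sv p.1 p.2))) :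
    PT A (wrNum N w) := hw

variable [Fintype B] [Fintype TG] [Fintype TJ]

/-- **The wires on numbers.** -/
theorem wires_pt (hl : GPar A l) (hbet : ∀ b, N.JT (fun a => a) (fun a => (S a).bet b))
    (heta : ∀ b, GT A l (fun a => (S a).eta b)) (htg : ∀ t, GT A l (fun a => tg a t))
    (htj : ∀ s, N.JT (fun a => a) (fun a => tj a s)) (i : Fin (wK B TG TJ nx)) :
    PT A (wrNum N fun a => (mkWires (S a) (tg a) (tj a) nx).wr i) :=
  wrNum_pt (ST_wperm hl hbet heta htg htj PT.fst'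
    (JNum.ST.ofNum hl PT.fst' PT.snd') _)

/-- Left translation by a family of sites, on numbers. -/
theorem lt_pt (hl : GPar A l) {z : ∀ a, J a} (hz : N.JT (fun a => a) z) {g : ∀ a, SL3 (l a)}
    (hg : GT A l g) : PT A (wrNum N fun a => H840.ltP (z a) (g a)) :=
  wrNum_pt (JNum.ST.lt hl PT.fst' (hz.comp PT.fst')
    (GT.comp hg PT.fst') (JNum.ST.ofNum hl PT.fst' PT.snd'))

/-! ### Multiplication in `SL_3` on numbers -/

/-- The product of two elements, on numbers. -/
noncomputable def gmulN (l : α → ℕ) (p : α × ℕ × ℕ) : ℕ :=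
  gn (l p.1) (ge (l p.1) p.2.1 * ge (l p.1) p.2.2)

theorem gmulN_pt (hl : GPar A l) : PT A (gmulN l) :=
  GT.mul (hl.comp PT.fst') (GT.ofNum (hl.comp PT.fst') (PT.fst'.comp PT.snd'))
    (GT.ofNum (hl.comp PT.fst') (PT.snd'.comp PT.snd'))

theorem gmulN_gn (l : α → ℕ) (a : α) (v w : SL3 (l a)) :
    gmulN l (a, gn (l a) v, gn (l a) w) = gn (l a) (v * w) := by
  unfold gmulN
  rw [ge_gn, ge_gn]

/-- Right multiplication by a family of elements, on numbers. -/
noncomputable def grN (l : α → ℕ) (g : ∀ a, SL3 (l a)) (p : α × ℕ) : ℕ :=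
  gn (l p.1) (ge (l p.1) p.2 * g p.1)

theorem grN_pt (hl : GPar A l) {g : ∀ a, SL3 (l a)} (hg : GT A l g) : PT A (grN l g) :=
  GT.mul (hl.comp PT.fst') (GT.ofNum (hl.comp PT.fst') PT.snd') (GT.comp hg PT.fst')

theorem grN_gn (l : α → ℕ) (g : ∀ a, SL3 (l a)) (a : α) (v : SL3 (l a)) :
    grN l g (a, gn (l a) v) = gn (l a) (v * g a) := by
  unfold grN
  rw [ge_gn]

end

end Vale.Agent.P330.H604
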