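import Vale.Agent.P330.W.H604.Inst
import Vale.Agent.P330.W.H604.Wir
import Vale.Agent.P330.W.H840.Outer
import Vale.Agent.P330.H675.JNum

/-!
# The concrete site group on numbers

For parameters `l a`, `d a` with `JPar A l d`: numbers of the sites `J × SL_3(Fl (l a))`, the wires
of the concrete outer code `oc`, the letters of the expander, everything in polynomial time.
-/

set_option linter.unusedSectionVars false

namespace Vale.Agent.P330.H604

open Vale.Agent.Lib.PolyTime Vale.Agent.P330.H933 Vale.Agent.P330.H155 Matrix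
open Vale.Agent.P330.H675 (JJ gen JPar jnum)
open Vale.Agent.P330.H840 (Wires oc tg12)
open Vale.Agent.P330.W (Abs)
open Vale.Agent.P330.H143 (OG)

/-- The twelve generators of `SL_3`. -/
theorem tg12_eq (l : ℕ) (p : Fin 12) : tg12 (th l) p = elt l p := by
  obtain ⟨p, hp⟩ := p
  interval_cases p <;> rfl

section

variable (Ab : Abs 8 20) (l : ℕ) (d : Fin 8 → ℕ) {F : Type} [Field F] [Algebra (ZMod 2) F]
  (ε : F) (nx : ℕ)

/-- The number of wires. -/
noncomputable def ocK (Ab : Abs 8 20) (nx : ℕ) : ℕ :=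
  wK (Fin (2 ^ (Ab.j * Ab.t))) (Fin 12) (Fin 8) nx

/-- The wires of the concrete outer code. -/
noncomputable def ocW :
    Wires (oc Ab (th l) d ε) (tg12 (th l)) (fun i : Fin 8 => gen (Fl l) d i) (ocK Ab nx) :=
  mkWires _ _ _ nx

theorem ocW_nx : (ocW Ab l d ε nx).nx = nx := rfl

/-- With 75 copies of the two-step neighbours more than three quarters of the wires are such
copies. -/
theorem ocK_le (hnx : 75 ≤ nx) :
    3 * ocK Ab nx ≤ 4 * ((ocW Ab l d ε nx).nx * (2 ^ (Ab.j * Ab.t) * 2 ^ (Ab.j * Ab.t))) := by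
  rw [ocW_nx]
  unfold ocK
  rw [wK_eq]
  simp only [Fintype.card_fin]
  have h1 : 1 ≤ 2 ^ (Ab.j * Ab.t) := Nat.one_le_two_pow
  generalize 2 ^ (Ab.j * Ab.t) = D at h1 ⊢
  have h2 : D ≤ D ^ 2 := by nlinarith
  have h3 : 75 * D ^ 2 ≤ nx * D ^ 2 := Nat.mul_le_mul_right _ hnx
  have h4 : nx * (D * D) = nx * D ^ 2 := by ring
  rw [h4]
  nlinarith

/-- The letters of the expander as permutations of the sites. -/
noncomputable def sOl (i : Fin 40) : Equiv.Perm (JJ (Fl l) d × SL3 l) :=
  H840.ltP (lett l d i).1 (lett l d i).2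

variable {l d}

/-- A site as an element of the group of `H143`. -/
def toOG (z : JJ (Fl l) d × SL3 l) : OG (JJ (Fl l) d) (SpecialLinearGroup (Fin 3) (Fl l)) := z

/-- The letters as left translations of the group. -/
theorem sOl_eq (i : Fin 40) (z : JJ (Fl l) d × SL3 l) :
    toOG (sOl l d i z) = H143.alpha0 (th l) d i * toOG z := by
  show H155.lt (lett l d i).1 (lett l d i).2 z = _
  rw [← lett_eq l d i]
  rfl

variable (l d) in
/-- The instance used for the group of `H143`. -/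
@[reducible] noncomputable def fOG :
    Fintype (OG (JJ (Fl l) d) (SpecialLinearGroup (Fin 3) (Fl l))) :=
  inferInstanceAs (Fintype (JJ (Fl l) d × SL3 l))

/-- The expansion of the letters. -/
theorem expP_sOl (hd : ∀ i, 1 ≤ d i) (hq : ∀ i, 64 * d i ^ 2 ≤ Fintype.card (Fl l)) :
    W.H709.ExpP (sOl l d) ((40 * H143.rho0) ^ 2) := by
  have h1 := @H143.expP_alpha0 (Fl l) _ _ _ (th l) (closure_th l) d hd hq (fOG l d)
  have h2 : sOl l d = fun p => Equiv.mulLeft (H143.alpha0 (th l) d p) := by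
    funext b
    ext1 h
    exact sOl_eq b h
  intro f hf
  rw [h2]
  exact h1 f hf

/-- The spectral gap of the letters. -/
theorem gap_sOl (hd : ∀ i, 1 ≤ d i) (hq : ∀ i, 64 * d i ^ 2 ≤ Fintype.card (Fl l)) :
    H855.Gap (sOl l d) H143.rho0 := by
  have h2 := W.H972.gap_of_expP (mul_nonneg (by norm_num) H143.rho0_nonneg) (expP_sOl hd hq)
  have h3 : (40 * H143.rho0) / (Fintype.card (Fin 40) : ℝ) = H143.rho0 := by
    rw [Fintype.card_fin]
    push_cast
    ring
  rwa [h3] at h2

end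

/-! ### Polynomial time -/

variable {A : Set Word} {α : Type} [Enc α] {l : α → ℕ} {d : α → Fin 8 → ℕ}

/-- The generators of `J`. -/
theorem JT_gen (h : JPar A l d) {β : Type} [Enc β] {u : β → α} (hu : PT A u) (i : Fin 8) :
    (jnum h).JT u (fun b => gen (Fl (l (u b))) (d (u b)) i) := by
  have h' : JPar A (fun b => l (u b)) (fun b => d (u b)) := h.comp hu
  refine (h'.jn_ven (PT.const (i : ℕ)) (H675.VT.e1 h'.toLPar)).congr fun b => ?_
  rw [H675.fr_fin]
  rfl

/-- The generators of `SL_3`. -/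
theorem GT_tg12 (hl : GPar A l) (p : Fin 12) : GT A l (fun a => tg12 (th (l a)) p) :=
  GT.congr (GT.elt hl p) fun a => (tg12_eq (l a) p).symm

/-- The letters. -/
theorem ST_lett (h : JPar A l d) {β : Type} [Enc β] {u : β → α} (hu : PT A u) (i : Fin 40) :
    (jnum h).ST u (fun b => lett (l (u b)) (d (u b)) i) :=
  JNum.ST.lett h.toGPar hu (fun i => JT_gen h hu i) i

/-- The `J`-part of a label of the outer code. -/
theorem JT_bet (h : JPar A l d) (Ab : Abs 8 20) {F : α → Type} [∀ a, Field (F a)]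
    [∀ a, Algebra (ZMod 2) (F a)] (ε : ∀ a, F a) (b : Fin (2 ^ (Ab.j * Ab.t))) :
    (jnum h).JT (fun a => a) (fun a => (oc Ab (th (l a)) (d a) (ε a)).bet b) :=
  JNum.JT.lab h.toGPar PT.id (fun i => JT_gen h PT.id i) Ab.j Ab.t b

/-- The `Γ`-part of a label of the outer code. -/
theorem GT_eta (h : JPar A l d) (Ab : Abs 8 20) {F : α → Type} [∀ a, Field (F a)]
    [∀ a, Algebra (ZMod 2) (F a)] (ε : ∀ a, F a) (b : Fin (2 ^ (Ab.j * Ab.t))) :
    GT A l (fun a => (oc Ab (th (l a)) (d a) (ε a)).eta b) :=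
  JNum.GT_lab h.toGPar PT.id (fun i => JT_gen h PT.id i) Ab.j Ab.t b

/-- **The wires of the outer code on numbers.** -/
theorem ocW_pt (h : JPar A l d) (Ab : Abs 8 20) {F : α → Type} [∀ a, Field (F a)]
    [∀ a, Algebra (ZMod 2) (F a)] (ε : ∀ a, F a) (nx : ℕ) (i : Fin (ocK Ab nx)) :
    PT A (wrNum (jnum h) fun a => (ocW Ab (l a) (d a) (ε a) nx).wr i) :=
  wires_pt (N := jnum h) h.toGPar (JT_bet h Ab ε) (GT_eta h Ab ε) (fun t => GT_tg12 h.toGPar t)
    (fun s => JT_gen h PT.id s) i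

/-- **The letters of the expander on numbers.** -/
theorem sOl_pt (h : JPar A l d) (i : Fin 40) :
    PT A (wrNum (jnum h) fun a => sOl (l a) (d a) i) :=
  lt_pt (N := jnum h) h.toGPar ((ST_lett h PT.id i).fst PT.id) ((ST_lett h PT.id i).snd PT.id)

/-- The number of the sites. -/
theorem sc_pt (h : JPar A l d) : PT A (jnum h).sc := JNum.PT_sc _ h.toGPar

theorem sc_bd (h : JPar A l d) : PBd (jnum h).sc := JNum.PBd_sc _ h.toGPar

theorem sc_eq (h : JPar A l d) (a : α) :
    (jnum h).sc a = Fintype.card (JJ (Fl (l a)) (d a)) * Fintype.card (SL3 (l a)) := by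
  show 2 ^ H675.kap (l a) (d a) * cG (l a) = _
  rw [H675.card_JJ (h.ok a), card_SL3]

end Vale.Agent.P330.H604
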