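import Vale.Agent.P330.W.H604.Lab
import Vale.Agent.P330.H143.Inst

/-!
# The letters and labels of the site group `J ⋊ SL_3(Fl l)` in polynomial time

`H143.alpha0` (the 40 letters) and `H143.lab` (the labels) for `K = Fl l`, `θ = th l` as sites with
numbers computable in polynomial time.
-/

namespace Vale.Agent.P330.H604

open Vale.Agent.Lib.PolyTime Vale.Agent.P330.H933 Vale.Agent.P330.H155 Matrix
open Vale.Agent.P330.H675 (JJ gen)
open Vale.Agent.P330.H143 (OG)

/-- The powers of `th l` generate the additive group of the field. -/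
theorem closure_th (l : ℕ) : AddSubgroup.closure (Set.range fun i : ℕ => th l ^ i) = ⊤ := by
  rw [eq_top_iff]
  intro x _
  have key : ∀ n k : ℕ, th l ^ k * dec l n ∈
      AddSubgroup.closure (Set.range fun i : ℕ => th l ^ i) := by
    intro n
    induction n using Nat.strong_induction_on with
    | _ n ih =>
      intro k
      rcases Nat.eq_zero_or_pos n with h0 | h0
      · rw [h0, dec_zero, mul_zero]
        exact zero_mem _
      · rw [dec_half, mul_add]
        refine add_mem ?_ ?_
        · split_ifs
          · rw [mul_one]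
            exact AddSubgroup.subset_closure ⟨k, rfl⟩
          · rw [mul_zero]
            exact zero_mem _
        · rw [← mul_assoc, ← pow_succ]
          exact ih _ (by omega) _
  have h := key (cod l x) 0
  rwa [pow_zero, one_mul, dec_cod] at h

section

variable (l : ℕ) (d : Fin 8 → ℕ)

/-- The 40 letters: 12 elementary matrices, the 8 generators of `J`, and the neutral element. -/
noncomputable def lett (i : Fin 40) : JJ (Fl l) d × SL3 l :=
  if h : i.1 < 12 then (0, elt l ⟨i.1, h⟩)
  else if h : i.1 < 20 then (gen (Fl l) d ⟨i.1 - 12, by omega⟩, 1)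
  else (0, 1)

/-- The permutation of the sites given by a letter. -/
theorem lett_eq (i : Fin 40) :
    (H143.alpha0 (th l) d i : OG (JJ (Fl l) d) (SpecialLinearGroup (Fin 3) (Fl l))) =
      lett l d i := by
  unfold H143.alpha0 lett
  by_cases h20 : i.1 < 20
  · rw [dif_pos h20]
    by_cases h12 : i.1 < 12
    · rw [dif_pos h12]
      unfold H143.gens
      by_cases h6 : i.1 < 6
      · rw [dif_pos h6]
        show ((0 : JJ (Fl l) d), _) = _
        congr 1
        obtain ⟨i, hi⟩ := i
        interval_cases i <;> rfl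
      · rw [dif_neg h6, dif_pos (show ((⟨i.1, h20⟩ : Fin 20) : ℕ) < 12 from h12)]
        show ((0 : JJ (Fl l) d), _) = _
        congr 1
        obtain ⟨i, hi⟩ := i
        change i < 12 at h12
        change ¬ i < 6 at h6
        interval_cases i <;> rfl
    · rw [dif_neg h12, dif_pos h20]
      unfold H143.gens
      rw [dif_neg (show ¬ ((⟨i.1, h20⟩ : Fin 20) : ℕ) < 6 by show ¬ i.1 < 6; omega),
        dif_neg (show ¬ ((⟨i.1, h20⟩ : Fin 20) : ℕ) < 12 from h12)]
      rfl
  · rw [dif_neg h20, dif_neg (by omega), dif_neg h20]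
    rfl

/-- The labels as words in the letters. -/
theorem lab_eq (j t : ℕ) (b : Fin (2 ^ (j * t))) :
    H143.lab (th l) d j t b = labP (lett l d) j t b := by
  have h := labels_eq (H := OG (JJ (Fl l) d) (SpecialLinearGroup (Fin 3) (Fl l)))
    (e := fun x => x) (X := JJ (Fl l) d) (G := SL3 l) rfl (fun x y => rfl)
    (H143.alpha0 (th l) d) j t b
  unfold H143.lab
  have e : (fun i => (H143.alpha0 (th l) d i :
      OG (JJ (Fl l) d) (SpecialLinearGroup (Fin 3) (Fl l)))) = lett l d :=
    funext fun i => lett_eq l d i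
  rw [e] at h
  exact h

end

/-! ### Polynomial time -/

variable {A : Set Word} {α : Type} [Enc α] {l : α → ℕ} {d : α → Fin 8 → ℕ}
variable {N : JNum A l (fun a => JJ (Fl (l a)) (d a))} {β : Type} [Enc β] {u : β → α}

namespace JNum

/-- The letters, given the generators of `J`. -/
theorem ST.lett (hl : GPar A l) (hu : PT A u)
    (hg : ∀ i, N.JT u (fun b => gen (Fl (l (u b))) (d (u b)) i)) (i : Fin 40) :
    N.ST u (fun b => H604.lett (l (u b)) (d (u b)) i) := by
  unfold H604.lett
  by_cases h12 : i.1 < 12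
  · simp only [dif_pos h12]
    exact ST.mk hu JT.zero (GT.elt (hl.comp hu) _)
  · simp only [dif_neg h12]
    by_cases h20 : i.1 < 20
    · simp only [dif_pos h20]
      exact ST.mk hu (hg _) (GT.one (hl.comp hu))
    · simp only [dif_neg h20]
      exact ST.one hl hu

/-- The labels, as functions of their numbers. -/
theorem ST.labN (hl : GPar A l) (hu : PT A u)
    (hg : ∀ i, N.JT u (fun b => gen (Fl (l (u b))) (d (u b)) i)) (j t : ℕ) {c : β → ℕ}
    (hc : PT A c) :
    N.ST u (fun b => H604.labP (H604.lett (l (u b)) (d (u b))) j t (c b)) :=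
  ST.labP hl hu (fun i => ST.lett hl hu hg i) j t hc

/-- The labels. -/
theorem ST.lab (hl : GPar A l) (hu : PT A u)
    (hg : ∀ i, N.JT u (fun b => gen (Fl (l (u b))) (d (u b)) i)) (j t : ℕ)
    (x : Fin (2 ^ (j * t))) :
    N.ST u (fun b => H143.lab (th (l (u b))) (d (u b)) j t x) :=
  (ST.labN hl hu hg j t (PT.const (x : ℕ))).congr fun _ => (lab_eq _ _ _ _ _).symm

/-- The `J`-part of a label. -/
theorem JT.lab (hl : GPar A l) (hu : PT A u)
    (hg : ∀ i, N.JT u (fun b => gen (Fl (l (u b))) (d (u b)) i)) (j t : ℕ)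
    (x : Fin (2 ^ (j * t))) :
    N.JT u (fun b => (H143.lab (th (l (u b))) (d (u b)) j t x).1) :=
  (ST.lab hl hu hg j t x).fst hu

/-- The `Γ`-part of a label. -/
theorem GT_lab (hl : GPar A l) (hu : PT A u)
    (hg : ∀ i, N.JT u (fun b => gen (Fl (l (u b))) (d (u b)) i)) (j t : ℕ)
    (x : Fin (2 ^ (j * t))) :
    GT A (fun b => l (u b)) (fun b => (H143.lab (th (l (u b))) (d (u b)) j t x).2) :=
  (ST.lab hl hu hg j t x).snd hu

end JNum

end Vale.Agent.P330.H604
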