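import Vale.Agent.P330.W.H604.Full
import Vale.Agent.P330.H247.SizeI

/-!
# The sites of the outer network of an instance, on numbers

For constants `C1`, `c0` with `64 * (c0 + 2) ≤ C1` and the parameters of `H247`: the sites, their
number, the wires of the outer code and the letters of the expander for all instances of
End-of-Line, in the form of the fields of `SFam` and `SIn`.
-/

set_option linter.unusedSectionVars false

namespace Vale.Agent.P330.H604

open Vale.Agent.Lib.PolyTime Vale.Agent.P330.H933 Vale.Agent.P330.H155 Matrix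
open Vale.Agent.P330.H675 (JJ gen JPar jnum)
open Vale.Agent.P330.H840 (Wires oc tg12)
open Vale.Agent.P330.W (Abs)
open Vale.Agent.P330.H838 (QLin QLog len)
open Vale.Agent.P330.H247

section

variable (C1 c0 : ℕ) (hC : 64 * (c0 + 2) ≤ C1)

include hC in
/-- The parameters of `J`. -/
theorem jparI : JPar ∅ (fun I : EndOfLine => lqI C1 I) (fun I => dI C1 c0 I) :=
  jpar PT.id hC

/-- The numbering of `J` for all instances. -/
noncomputable def jN : JNum ∅ (fun I : EndOfLine => lqI C1 I)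
    (fun I => JJ (Fl (lqI C1 I)) (dI C1 c0 I)) := jnum (jparI C1 c0 hC)

/-- The sites. -/
abbrev Om (I : EndOfLine) : Type := JJ (Fl (lqI C1 I)) (dI C1 c0 I) × SL3 (lqI C1 I)

/-- The number of sites. -/
noncomputable def nS (I : EndOfLine) : ℕ := (jN C1 c0 hC).sc I

/-- The numbers of the sites. -/
noncomputable def numS (I : EndOfLine) : Om C1 c0 I ≃ Fin (nS C1 c0 hC I) := (jN C1 c0 hC).sE I

theorem nS_eq (I : EndOfLine) : nS C1 c0 hC I = 2 ^ kapI C1 c0 I * cG (lqI C1 I) := by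
  show 2 ^ H675.kap (lqI C1 I) (dI C1 c0 I) * cG (lqI C1 I) = _
  rw [kap_eq hC]

theorem nS_pos (I : EndOfLine) : 0 < nS C1 c0 hC I :=
  lt_of_le_of_lt (Nat.zero_le _) (numS C1 c0 hC I (0, 1)).2

theorem nS_pt : PT ∅ (nS C1 c0 hC) := sc_pt (jparI C1 c0 hC)

theorem nS_bd : PBd (nS C1 c0 hC) := sc_bd (jparI C1 c0 hC)

theorem nS_qlin : QLin (nS C1 c0 hC) := by
  have h : nS C1 c0 hC = fun I => 2 ^ kapI C1 c0 I * cG (lqI C1 I) :=
    funext fun I => nS_eq C1 c0 hC I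
  rw [h]
  exact qlin_sites

/-! ### The expander -/

/-- The letters. -/
noncomputable def sOS (I : EndOfLine) (j : Fin 40) : Om C1 c0 I ≃ Om C1 c0 I :=
  sOl (lqI C1 I) (dI C1 c0 I) j

include hC in
theorem gap_sOS (I : EndOfLine) : H855.Gap (sOS C1 c0 I) H143.rho0 :=
  gap_sOl (degOK hC I).1 (degOK hC I).2

/-- The letters on numbers. -/
noncomputable def sONS (j : Fin 40) : EndOfLine × ℕ → ℕ :=
  wrNum (jN C1 c0 hC) fun I => sOl (lqI C1 I) (dI C1 c0 I) j

theorem sONS_pt (j : Fin 40) : PT ∅ (sONS C1 c0 hC j) := sOl_pt (jparI C1 c0 hC) j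

theorem sONS_eq (j : Fin 40) (I : EndOfLine) (h : Om C1 c0 I) :
    sONS C1 c0 hC j (I, (numS C1 c0 hC I h : ℕ)) = numS C1 c0 hC I (sOS C1 c0 I j h) :=
  wrNum_eq (jN C1 c0 hC) (fun I => sOl (lqI C1 I) (dI C1 c0 I) j) I h

/-! ### The wires -/

variable (Ab : Abs 8 20) (F : EndOfLine → Type) [∀ I, Field (F I)]
  [∀ I, Algebra (ZMod 2) (F I)] (ε : ∀ I, F I) (nx : ℕ)

/-- The wires of the outer code of an instance. -/
noncomputable def WS (I : EndOfLine) :
    Wires (oc Ab (th (lqI C1 I)) (dI C1 c0 I) (ε I)) (tg12 (th (lqI C1 I)))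
      (fun i : Fin 8 => gen (Fl (lqI C1 I)) (dI C1 c0 I) i) (ocK Ab nx) :=
  ocW Ab (lqI C1 I) (dI C1 c0 I) (ε I) nx

/-- The wires on numbers. -/
noncomputable def wrNS (i : Fin (ocK Ab nx)) : EndOfLine × ℕ → ℕ :=
  wrNum (jN C1 c0 hC) fun I => (WS C1 c0 Ab F ε nx I).wr i

theorem wrNS_pt (i : Fin (ocK Ab nx)) : PT ∅ (wrNS C1 c0 hC Ab F ε nx i) :=
  ocW_pt (jparI C1 c0 hC) Ab ε nx i

theorem wrNS_eq (i : Fin (ocK Ab nx)) (I : EndOfLine) (h : Om C1 c0 I) :
    wrNS C1 c0 hC Ab F ε nx i (I, (numS C1 c0 hC I h : ℕ)) =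
      numS C1 c0 hC I ((WS C1 c0 Ab F ε nx I).wr i h) :=
  wrNum_eq (jN C1 c0 hC) (fun I => (WS C1 c0 Ab F ε nx I).wr i) I h

/-- The own wire. -/
noncomputable def ownS : Fin (ocK Ab nx) :=
  wKe (Fin (2 ^ (Ab.j * Ab.t))) (Fin 12) (Fin 8) nx (.inl ())

theorem WS_own (I : EndOfLine) : (WS C1 c0 Ab F ε nx I).own = ownS Ab nx := rfl

end

end Vale.Agent.P330.H604
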